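import Mathlib

/-!
# Bang's plank theorem, for measurable unions of parallel hyperplanes
-/

open MeasureTheory
open scoped RealInnerProductSpace ENNReal

namespace Vale.Agent.P243.Coplanar

variable {F : Type*} [NormedAddCommGroup F] [InnerProductSpace ℝ F] [FiniteDimensional ℝ F]

/-- Every width of `K` is at least `W`. -/
def WidthAtLeast (K : Set F) (W : ℝ) : Prop :=
  ∀ v : F, ‖v‖ = 1 → ∃ x ∈ K, ∃ y ∈ K, W ≤ ⟪v, x - y⟫

/-- There is a chord at least as long as the width in every direction. -/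
theorem exists_chord {K : Set F} (hK : IsCompact K) (hc : Convex ℝ K) (hne : K.Nonempty) {W : ℝ}
    (hW0 : 0 ≤ W) (hW : WidthAtLeast K W) {e : F} (he : ‖e‖ = 1) : ∃ p ∈ K, p + W • e ∈ K := by
  by_contra h
  push Not at h
  set K' : Set F := (fun x => W • e + x) '' K
  have hK' : IsCompact K' := hK.image (continuous_const.add continuous_id)
  have hdis : Disjoint K' K := by
    rw [Set.disjoint_left]
    rintro _ ⟨p, hp, rfl⟩ hq
    exact h p hp (by simpa [add_comm] using hq)
  obtain ⟨f, a, b, hfa, hab, hfb⟩ :=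
    geometric_hahn_banach_compact_closed hc hK (hc.translate (W • e)) hK'.isClosed hdis.symm
  set g : F := (InnerProductSpace.toDual ℝ F).symm f
  have hg : ∀ x, ⟪g, x⟫ = f x := fun x => InnerProductSpace.toDual_symm_apply
  obtain ⟨z, hz⟩ := hne
  have h1 := hfa z hz
  have h2 := hfb _ ⟨z, hz, rfl⟩
  rw [map_add] at h2
  have hg0 : g ≠ 0 := by
    intro h0
    have e1 := hg z
    have e2 := hg (W • e)
    rw [h0, inner_zero_left] at e1 e2
    linarith
  have hgn : 0 < ‖g‖ := norm_pos_iff.2 hg0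
  obtain ⟨x, hx, y, hy, hxy⟩ := hW (‖g‖⁻¹ • g) (norm_smul_inv_norm hg0)
  rw [inner_smul_left, inner_sub_right, hg, hg] at hxy
  simp only [RCLike.conj_to_real] at hxy
  have h3 := hfa x hx
  have h4 := hfb _ ⟨y, hy, rfl⟩
  rw [map_add] at h4
  have h5 : ⟪g, e⟫ ≤ ‖g‖ := by simpa [he] using real_inner_le_norm g e
  have h6 : f (W • e) = W * ⟪g, e⟫ := by rw [← hg, inner_smul_right]
  have h7 : W * ‖g‖ ≤ f x - f y := by
    rw [← div_eq_inv_mul, le_div_iff₀ hgn] at hxy
    exact hxy
  nlinarith [mul_le_mul_of_nonneg_left h5 hW0]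

/-- All points `x + ∑ ± w i • u i` fit into a body of width larger than twice the sum of the `w`. -/
theorem exists_signs {ι : Type*} [DecidableEq ι] (u : ι → F) (hu : ∀ i, ‖u i‖ = 1) (w : ι → ℝ)
    (hw : ∀ i, 0 ≤ w i) (s : Finset ι) : ∀ (K : Set F) (W : ℝ), IsCompact K → Convex ℝ K →
      K.Nonempty → WidthAtLeast K W → ∑ i ∈ s, 2 * w i < W →
      ∃ x : F, ∀ ε : ι → Bool,
        x + ∑ i ∈ s, (if ε i then w i else -w i) • u i ∈ K := by
  induction s using Finset.induction_on with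
  | empty =>
    intro K W _ _ hne _ _
    obtain ⟨x, hx⟩ := hne
    exact ⟨x, fun ε => by simpa using hx⟩
  | insert a s ha ih =>
    intro K W hK hc hne hW hsum
    rw [Finset.sum_insert ha] at hsum
    have hs0 : 0 ≤ ∑ i ∈ s, 2 * w i := Finset.sum_nonneg fun i _ => by linarith [hw i]
    have hWp : 0 < W := by linarith [hw a]
    obtain ⟨p, hp, hq⟩ := exists_chord hK hc hne hWp.le hW (hu a)
    set μ : ℝ := 2 * w a / W
    have hμ0 : 0 ≤ μ := div_nonneg (by linarith [hw a]) hWp.le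
    have hμ1 : μ < 1 := by rw [div_lt_one hWp]; linarith
    have hμW : μ * W = 2 * w a := div_mul_cancel₀ _ hWp.ne'
    set K' : Set F := ((fun x => x + w a • u a) ⁻¹' K) ∩ ((fun x => x - w a • u a) ⁻¹' K)
    have hin : ∀ x ∈ K, (1 - μ) • x + μ • (p + (W / 2) • u a) ∈ K' := by
      intro x hx
      refine ⟨?_, ?_⟩
      · show _ + w a • u a ∈ K
        have := hc hx hq (show 0 ≤ 1 - μ by linarith) hμ0 (by ring)
        convert this using 1
        rw [smul_add, smul_add, smul_smul, smul_smul, hμW, show μ * (W / 2) = w a by linarith]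
        module
      · show _ - w a • u a ∈ K
        have := hc hx hp (show 0 ≤ 1 - μ by linarith) hμ0 (by ring)
        convert this using 1
        rw [smul_add, smul_smul, show μ * (W / 2) = w a by linarith]
        module
    have hK' : IsCompact K' := by
      have : IsClosed ((fun x : F => x - w a • u a) ⁻¹' K) :=
        hK.isClosed.preimage (continuous_id.sub continuous_const)
      exact ((Homeomorph.addRight (w a • u a)).isCompact_preimage.2 hK).inter_right this
    have hc' : Convex ℝ K' :=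
      ((hc.translate_preimage_left (w a • u a))).inter (by
        simpa only [sub_eq_add_neg] using hc.translate_preimage_left (-(w a • u a)))
    obtain ⟨x0, hx0⟩ := hne
    obtain ⟨x, hx⟩ := ih K' ((1 - μ) * W) hK' hc' ⟨_, hin x0 hx0⟩ (fun v hv => by
      obtain ⟨x, hx, y, hy, hxy⟩ := hW v hv
      refine ⟨_, hin x hx, _, hin y hy, ?_⟩
      rw [show (1 - μ) • x + μ • (p + (W / 2) • u a) - ((1 - μ) • y + μ • (p + (W / 2) • u a))
          = (1 - μ) • (x - y) by module, inner_smul_right]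
      exact mul_le_mul_of_nonneg_left hxy (by linarith)) (by nlinarith)
    refine ⟨x, fun ε => ?_⟩
    obtain ⟨hp', hm'⟩ := hx ε
    simp only [Set.mem_preimage] at hp' hm'
    rw [Finset.sum_insert ha]
    cases ε a
    · simp only [Bool.false_eq_true, if_false, neg_smul]
      convert hm' using 1
      abel
    · simp only [if_true]
      convert hp' using 1
      abel

/-- Bang: planks of total width less than the width leave a point of `K` uncovered. -/
theorem exists_outside {ι : Type*} [Fintype ι] (u : ι → F) (hu : ∀ i, ‖u i‖ = 1) (c w : ι → ℝ)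
    (hw : ∀ i, 0 < w i) {K : Set F} {W : ℝ} (hK : IsCompact K) (hc : Convex ℝ K)
    (hne : K.Nonempty) (hW : WidthAtLeast K W) (hsum : ∑ i, 2 * w i < W) :
    ∃ y ∈ K, ∀ i, w i ≤ |⟪u i, y⟫ - c i| := by
  classical
  obtain ⟨x, hx⟩ := exists_signs u hu w (fun i => (hw i).le) Finset.univ K W hK hc hne hW hsum
  let pt : (ι → Bool) → F := fun ε => x + ∑ i, (if ε i then w i else -w i) • u i
  let Φ : (ι → Bool) → ℝ := fun ε => ‖pt ε‖ ^ 2 - 2 * ∑ i, (if ε i then w i else -w i) * c i
  obtain ⟨ε, -, hε⟩ := Finset.exists_max_image Finset.univ Φ Finset.univ_nonempty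
  refine ⟨pt ε, hx ε, fun i => ?_⟩
  set ε' := Function.update ε i (!ε i)
  set s : ℝ := if ε i then w i else -w i with hsd
  have hd : ∀ j, (if ε' j then w j else -w j) =
      (if ε j then w j else -w j) + (if j = i then -2 * s else 0) := by
    intro j
    rcases eq_or_ne j i with rfl | hji
    · simp only [ε', s, Function.update_self, if_true]
      cases ε j <;> simp <;> ring
    · simp [ε', hji]
  have e1 : pt ε' = pt ε + (-2 * s) • u i := by
    simp only [pt, hd, add_smul, Finset.sum_add_distrib]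
    simp [ite_smul, add_assoc]
  have e2 : ∑ j, (if ε' j then w j else -w j) * c j =
      (∑ j, (if ε j then w j else -w j) * c j) + (-2 * s) * c i := by
    simp only [hd, add_mul, Finset.sum_add_distrib, ite_mul, zero_mul, Finset.sum_ite_eq',
      Finset.mem_univ, if_true]
  have h := hε ε' (Finset.mem_univ _)
  simp only [Φ, e1, e2, norm_add_sq_real, inner_smul_right, norm_smul, Real.norm_eq_abs, hu i,
    mul_one, sq_abs, real_inner_comm (u i) (pt ε)] at h
  have key : s ^ 2 ≤ s * (⟪u i, pt ε⟫ - c i) := by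
    rw [real_inner_comm (pt ε) (u i)] at *
    nlinarith [h]
  have hs : |s| = w i := by
    simp only [s]; split_ifs <;> simp [abs_of_pos (hw i)]
  nlinarith [abs_mul s (⟪u i, pt ε⟫ - c i), le_abs_self (s * (⟪u i, pt ε⟫ - c i)), sq_abs s, hw i]

/-- Unions of parallel hyperplanes that cover `K` have total width at least the width. -/
theorem width_le_tsum {ι : Type*} [Countable ι] (u : ι → F) (hu : ∀ i, ‖u i‖ = 1)
    (S : ι → Set ℝ) {K : Set F} {W : ℝ} (hK : IsCompact K) (hc : Convex ℝ K) (hne : K.Nonempty)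
    (hW : WidthAtLeast K W) (hcov : ∀ x ∈ K, ∃ i, ⟪u i, x⟫ ∈ S i) :
    ENNReal.ofReal W ≤ ∑' i, volume (S i) := by
  classical
  by_contra hlt
  push Not at hlt
  obtain ⟨r, hr1, hr2⟩ := exists_between hlt
  obtain ⟨η, hη, hηs⟩ := ENNReal.exists_pos_sum_of_countable' (ε := r - ∑' i, volume (S i))
    (tsub_pos_of_lt hr1).ne' ι
  choose U hSU hUo hUv using fun i =>
    Set.exists_isOpen_le_add (S i) volume (hη i).ne'
  obtain ⟨t, ht⟩ := hK.elim_finite_subcover (fun i => (fun x => ⟪u i, x⟫) ⁻¹' U i)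
    (fun i => (hUo i).preimage (by fun_prop))
    fun x hx => by
      obtain ⟨i, hi⟩ := hcov x hx
      exact Set.mem_iUnion.2 ⟨i, hSU i hi⟩
  obtain ⟨P, hPc, hPsub, hPK⟩ := hK.finite_compact_cover t
    (fun i => (fun x => ⟪u i, x⟫) ⁻¹' U i) (fun i _ => (hUo i).preimage (by fun_prop)) ht
  set C : ι → Set ℝ := fun i => (fun x => ⟪u i, x⟫) '' P i
  have hC : ∀ i, IsCompact (C i) := fun i => (hPc i).image (by fun_prop)
  have hCU : ∀ i, C i ⊆ U i := fun i => Set.image_subset_iff.2 (hPsub i)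
  choose δ' hδ' hδU using fun i => (hC i).exists_cthickening_subset_open (hUo i) (hCU i)
  obtain ⟨δ, hδ, hδle⟩ : ∃ δ > 0, ∀ i ∈ t, δ ≤ δ' i := by
    refine ⟨(insert (1 : ℝ) (t.image δ')).min' (Finset.insert_nonempty _ _), ?_, fun i hi =>
      Finset.min'_le _ _ (by simp only [Finset.mem_insert, Finset.mem_image]; exact Or.inr ⟨i, hi, rfl⟩)⟩
    rw [gt_iff_lt, Finset.lt_min'_iff]
    simp only [Finset.mem_insert, Finset.mem_image]
    rintro z (rfl | ⟨i, -, rfl⟩)
    · exact one_pos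
    · exact hδ' i
  have hfin : ∀ i, {k : ℤ | ∃ z ∈ C i, ⌊z / δ⌋ = k}.Finite := by
    intro i
    obtain ⟨M, hM⟩ := (hC i).bddAbove
    obtain ⟨m, hm⟩ := (hC i).bddBelow
    refine (Set.finite_Icc ⌊m / δ⌋ ⌊M / δ⌋).subset ?_
    rintro k ⟨z, hz, rfl⟩
    exact ⟨Int.floor_le_floor (div_le_div_of_nonneg_right (hm hz) hδ.le),
      Int.floor_le_floor (div_le_div_of_nonneg_right (hM hz) hδ.le)⟩
  set T : Finset ((_ : ι) × ℤ) := t.sigma fun i => (hfin i).toFinset
  have hcells : ∀ i ∈ t, ((hfin i).toFinset.card : ℝ≥0∞) * ENNReal.ofReal δ ≤ volume (U i) := by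
    intro i hi
    have hd : Set.PairwiseDisjoint (↑(hfin i).toFinset)
        fun k : ℤ => Set.Ico ((k : ℝ) * δ) ((k + 1) * δ) := by
      intro a _ b _ hab
      rw [Function.onFun, Set.disjoint_left]
      intro z hza hzb
      refine hab ?_
      have ha : ⌊z / δ⌋ = a := Int.floor_eq_iff.2
        ⟨(le_div_iff₀ hδ).2 hza.1, (div_lt_iff₀ hδ).2 hza.2⟩
      have hb : ⌊z / δ⌋ = b := Int.floor_eq_iff.2
        ⟨(le_div_iff₀ hδ).2 hzb.1, (div_lt_iff₀ hδ).2 hzb.2⟩
      exact ha.symm.trans hb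
    calc ((hfin i).toFinset.card : ℝ≥0∞) * ENNReal.ofReal δ
        = ∑ k ∈ (hfin i).toFinset, volume (Set.Ico ((k : ℝ) * δ) ((k + 1) * δ)) := by
          simp [Real.volume_Ico, add_mul]
      _ = volume (⋃ k ∈ (hfin i).toFinset, Set.Ico ((k : ℝ) * δ) ((k + 1) * δ)) :=
          (measure_biUnion_finset hd fun _ _ => measurableSet_Ico).symm
      _ ≤ volume (U i) := measure_mono (Set.iUnion₂_subset fun k hk z hz => by
          obtain ⟨z', hz', hk'⟩ := (hfin i).mem_toFinset.1 hk
          refine hδU i (Metric.mem_cthickening_of_dist_le z z' _ _ hz' (le_trans ?_ (hδle i hi)))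
          have h1 := Int.floor_eq_iff.1 hk'
          rw [le_div_iff₀ hδ, div_lt_iff₀ hδ] at h1
          rw [Real.dist_eq, abs_le]
          constructor <;> nlinarith [hz.1, hz.2, h1.1, h1.2])
  have htot : (T.card : ℝ) * δ < W := by
    have hb : (T.card : ℝ≥0∞) * ENNReal.ofReal δ < ENNReal.ofReal W := by
      refine lt_of_le_of_lt ?_ hr2
      calc (T.card : ℝ≥0∞) * ENNReal.ofReal δ
          = ∑ i ∈ t, ((hfin i).toFinset.card : ℝ≥0∞) * ENNReal.ofReal δ := by
            simp [T, Finset.card_sigma, Finset.sum_mul]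
        _ ≤ ∑ i ∈ t, (volume (S i) + η i) :=
            Finset.sum_le_sum fun i hi => (hcells i hi).trans (hUv i)
        _ ≤ ∑' i, (volume (S i) + η i) := ENNReal.sum_le_tsum t
        _ ≤ ∑' i, volume (S i) + (r - ∑' i, volume (S i)) := by
            rw [ENNReal.tsum_add]; gcongr
        _ = r := add_tsub_cancel_of_le hr1.le
    rw [← ENNReal.ofReal_natCast, ← ENNReal.ofReal_mul (Nat.cast_nonneg _)] at hb
    exact (ENNReal.ofReal_lt_ofReal_iff'.1 hb).1
  set g : ℝ := (W - T.card * δ) / (4 * (T.card + 1))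
  have hg : 0 < g := div_pos (by linarith) (by positivity)
  obtain ⟨y, hy, hout⟩ := exists_outside (ι := T) (fun k => u k.1.1) (fun k => hu _)
    (fun k => ((k.1.2 : ℝ) + 1 / 2) * δ) (fun _ => δ / 2 + g) (fun _ => by positivity) hK hc hne hW
    (by
      rw [Finset.sum_const, Finset.card_univ, Fintype.card_coe, nsmul_eq_mul]
      have h4 : g * (4 * (T.card + 1)) = W - T.card * δ := div_mul_cancel₀ _ (by positivity)
      nlinarith)
  rw [hPK] at hy
  obtain ⟨i, hi, hyi⟩ := Set.mem_iUnion₂.1 hy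
  have hz : ⟪u i, y⟫ ∈ C i := ⟨y, hyi, rfl⟩
  have := hout ⟨⟨i, ⌊⟪u i, y⟫ / δ⌋⟩, Finset.mem_sigma.2
    ⟨hi, (hfin i).mem_toFinset.2 ⟨_, hz, rfl⟩⟩⟩
  have h1 := Int.floor_eq_iff.1 (rfl : ⌊⟪u i, y⟫ / δ⌋ = ⌊⟪u i, y⟫ / δ⌋)
  rw [le_div_iff₀ hδ, div_lt_iff₀ hδ] at h1
  have h2 : |⟪u i, y⟫ - ((⌊⟪u i, y⟫ / δ⌋ : ℝ) + 1 / 2) * δ| ≤ δ / 2 := by
    rw [abs_le]; constructor <;> nlinarith [h1.1, h1.2]
  linarith

end Vale.Agent.P243.Coplanar
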