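import Mathlib

/-!
# Sections of a planar convex set are at least a tent of the area
-/

open MeasureTheory
open scoped ENNReal

namespace Vale.Agent.P243.Coplanar

/-- A line above a convex set through the top of a section. -/
theorem exists_slope {Q : Set (ℝ × ℝ)} (hc : Convex ℝ Q) {z hi : ℝ}
    (htop : ∀ s, (z, s) ∈ Q → s ≤ hi) (hl : ∃ p ∈ Q, p.1 < z) (hr : ∃ p ∈ Q, z < p.1) :
    ∃ α : ℝ, ∀ q ∈ Q, q.2 ≤ hi + α * (q.1 - z) := by
  have key : ∀ p ∈ Q, ∀ q ∈ Q, p.1 < z → z < q.1 →
      (q.2 - hi) / (q.1 - z) ≤ (hi - p.2) / (z - p.1) := by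
    intro p hp q hq hpz hzq
    have hd : q.1 - p.1 ≠ 0 := by linarith
    have hmem := hc hp hq (a := (q.1 - z) / (q.1 - p.1)) (b := (z - p.1) / (q.1 - p.1))
      (div_nonneg (by linarith) (by linarith)) (div_nonneg (by linarith) (by linarith))
      (by field_simp; ring)
    have e : ((q.1 - z) / (q.1 - p.1)) • p + ((z - p.1) / (q.1 - p.1)) • q =
        (z, ((q.1 - z) * p.2 + (z - p.1) * q.2) / (q.1 - p.1)) := by
      ext <;> simp only [Prod.fst_add, Prod.snd_add, Prod.smul_fst, Prod.smul_snd, smul_eq_mul]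
      · field_simp; ring
      · field_simp
    rw [e] at hmem
    have h := htop _ hmem
    rw [div_le_iff₀ (by linarith)] at h
    rw [div_le_div_iff₀ (by linarith) (by linarith)]
    linarith
  obtain ⟨pl, hpl, hplz⟩ := hl
  obtain ⟨pr, hpr, hzpr⟩ := hr
  set S : Set ℝ := {r | ∃ q ∈ Q, z < q.1 ∧ r = (q.2 - hi) / (q.1 - z)}
  have hne : S.Nonempty := ⟨_, pr, hpr, hzpr, rfl⟩
  have hbdd : BddAbove S := ⟨_, by
    rintro r ⟨q, hq, hzq, rfl⟩; exact key pl hpl q hq hplz hzq⟩
  refine ⟨sSup S, fun q hq => ?_⟩
  rcases lt_trichotomy q.1 z with h | h | h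
  · have hle : sSup S ≤ (hi - q.2) / (z - q.1) := csSup_le hne (by
      rintro r ⟨q', hq', hzq', rfl⟩; exact key q hq q' hq' h hzq')
    rw [le_div_iff₀ (by linarith)] at hle
    linarith
  · have : (z, q.2) ∈ Q := by rw [← h]; exact hq
    have := htop _ this
    rw [h, sub_self, mul_zero, add_zero]
    exact this
  · have hle := le_csSup hbdd (show (q.2 - hi) / (q.1 - z) ∈ S from ⟨q, hq, h, rfl⟩)
    rw [div_le_iff₀ (by linarith)] at hle
    linarith

/-- The section at `z` is at least `2 min (z - a) (b - z) / (b - a) ^ 2` times the area. -/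
theorem exists_long_section {Q : Set (ℝ × ℝ)} (hQ : IsCompact Q) (hc : Convex ℝ Q) {a b z : ℝ}
    (hsub : ∀ q ∈ Q, a ≤ q.1 ∧ q.1 ≤ b) {sa sb : ℝ} (ha : (a, sa) ∈ Q) (hb : (b, sb) ∈ Q)
    (haz : a < z) (hzb : z < b) :
    ∃ s t : ℝ, (z, s) ∈ Q ∧ (z, t) ∈ Q ∧ 0 ≤ s - t ∧
      volume Q ≤ ENNReal.ofReal ((b - a) ^ 2 * (s - t) / (2 * min (z - a) (b - z))) := by
  set S : Set ℝ := (fun q : ℝ × ℝ => q.2) '' (Q ∩ {q | q.1 = z})
  have hS : IsCompact S :=
    (hQ.inter_right (isClosed_eq continuous_fst continuous_const)).image continuous_snd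
  have hmem : ∀ s, s ∈ S ↔ (z, s) ∈ Q := fun s => ⟨by
    rintro ⟨⟨x, y⟩, ⟨hq, hz⟩, rfl⟩
    simp only [Set.mem_ofPred_eq] at hz
    subst hz; exact hq, fun h => ⟨_, ⟨h, rfl⟩, rfl⟩⟩
  have hSne : S.Nonempty := by
    have hd : b - a ≠ 0 := by linarith
    have := hc ha hb (a := (b - z) / (b - a)) (b := (z - a) / (b - a))
      (div_nonneg (by linarith) (by linarith)) (div_nonneg (by linarith) (by linarith))
      (by field_simp; ring)
    refine ⟨((b - z) / (b - a)) * sa + ((z - a) / (b - a)) * sb, (hmem _).2 ?_⟩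
    convert this using 1
    ext <;> simp
    field_simp; ring
  obtain ⟨s, hs, hsmax⟩ := hS.exists_isMaxOn hSne continuousOn_id
  obtain ⟨t, ht, htmin⟩ := hS.exists_isMinOn hSne continuousOn_id
  obtain ⟨α, hα⟩ := exists_slope hc (z := z) (hi := s) (fun r hr => hsmax ((hmem r).2 hr))
    ⟨_, ha, haz⟩ ⟨_, hb, hzb⟩
  obtain ⟨β', hβ'⟩ := exists_slope (Q := (fun q : ℝ × ℝ => (q.1, -q.2)) ⁻¹' Q)
    (by
      intro p hp q hq x y hx hy hxy
      show (_, _) ∈ Q
      convert hc hp hq hx hy hxy using 1
      ext <;> simp; ring)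
    (z := z) (hi := -t) (fun r hr => by
      have := htmin ((hmem (-r)).2 hr)
      simp only [id, Set.mem_ofPred_eq] at this
      linarith)
    ⟨(a, -sa), by simpa using ha, haz⟩ ⟨(b, -sb), by simpa using hb, hzb⟩
  have hlow : ∀ q ∈ Q, t - β' * (q.1 - z) ≤ q.2 := fun q hq => by
    have := hβ' (q.1, -q.2) (by simpa using hq)
    simp only at this
    linarith
  have hst : 0 ≤ s - t := sub_nonneg.2 (hsmax ht)
  refine ⟨s, t, (hmem s).1 hs, (hmem t).1 ht, hst, ?_⟩
  set γ := α + β'
  set ℓ : ℝ → ℝ := fun x => (s - t) + γ * (x - z)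
  have hla : 0 ≤ ℓ a := by
    have h1 := hα _ ha
    have h2 := hlow _ ha
    simp only at h1 h2
    simp only [ℓ, γ]; linarith
  have hlb : 0 ≤ ℓ b := by
    have h1 := hα _ hb
    have h2 := hlow _ hb
    simp only at h1 h2
    simp only [ℓ, γ]; linarith
  have hl0 : ∀ x ∈ Set.Icc a b, 0 ≤ ℓ x := fun x hx => by
    simp only [ℓ] at hla hlb ⊢
    rcases le_total 0 γ with h | h <;> nlinarith [hx.1, hx.2]
  set R : Set (ℝ × ℝ) := {q | (a ≤ q.1 ∧ q.1 ≤ b) ∧ t - β' * (q.1 - z) ≤ q.2 ∧ q.2 ≤ s + α * (q.1 - z)}
  have hR : MeasurableSet R :=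
    (((isClosed_le continuous_const continuous_fst).inter
      (isClosed_le continuous_fst continuous_const)).inter
      ((isClosed_le (by fun_prop) continuous_snd).inter
        (isClosed_le continuous_snd (by fun_prop)))).measurableSet
  have hcont : Continuous ℓ := by fun_prop
  calc volume Q ≤ volume R := measure_mono fun q hq => ⟨hsub q hq, hlow q hq, hα q hq⟩
    _ = ∫⁻ x, (Set.Icc a b).indicator (fun x => ENNReal.ofReal (ℓ x)) x := by
        rw [Measure.volume_eq_prod, Measure.prod_apply hR]
        refine lintegral_congr fun x => ?_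
        by_cases hx : x ∈ Set.Icc a b
        · have : Prod.mk x ⁻¹' R = Set.Icc (t - β' * (x - z)) (s + α * (x - z)) := by
            ext y; simp [R, hx.1, hx.2]
          rw [this, Real.volume_Icc, Set.indicator_of_mem hx]
          congr 1
          simp only [ℓ, γ]; ring
        · have : Prod.mk x ⁻¹' R = ∅ := by
            ext y
            simp only [R, Set.mem_preimage, Set.mem_ofPred_eq, Set.mem_empty_iff_false, iff_false]
            exact fun h => hx h.1
          rw [this, measure_empty, Set.indicator_of_notMem hx]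
    _ = ENNReal.ofReal (∫ x in a..b, ℓ x) := by
        rw [lintegral_indicator measurableSet_Icc, intervalIntegral.integral_of_le (by linarith),
          ← integral_Icc_eq_integral_Ioc, ofReal_integral_eq_lintegral_ofReal]
        · exact hcont.integrableOn_Icc
        · exact (ae_restrict_iff' measurableSet_Icc).2 (Filter.Eventually.of_forall hl0)
    _ ≤ _ := by
        refine ENNReal.ofReal_le_ofReal ?_
        have hint : ∫ x in a..b, ℓ x = (b - a) * ((s - t) + γ * ((a + b) / 2 - z)) := by
          simp only [ℓ]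
          rw [intervalIntegral.integral_add intervalIntegrable_const
            ((by fun_prop : Continuous fun x => γ * (x - z)).intervalIntegrable _ _),
            intervalIntegral.integral_const, intervalIntegral.integral_const_mul,
            intervalIntegral.integral_sub intervalIntegral.intervalIntegrable_id
              intervalIntegrable_const, integral_id, intervalIntegral.integral_const]
          simp only [smul_eq_mul]
          ring
        have hm : 0 < min (z - a) (b - z) := lt_min (by linarith) (by linarith)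
        rw [hint, le_div_iff₀ (by linarith)]
        have hL : 0 ≤ b - a := by linarith
        simp only [ℓ] at hla hlb
        rcases le_total (z - a) (b - z) with h | h
        · rw [min_eq_left h]
          nlinarith [mul_nonneg hL (mul_nonneg (show 0 ≤ a + b - 2 * z by linarith) hla)]
        · rw [min_eq_right h]
          nlinarith [mul_nonneg hL (mul_nonneg (show 0 ≤ 2 * z - a - b by linarith) hlb)]

/-- The integral of the tent. -/
theorem lintegral_tent {a b c : ℝ} (hab : a ≤ b) (hc : 0 ≤ c) :
    ∫⁻ z in Set.Ioo a b, ENNReal.ofReal (c * min (z - a) (b - z)) =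
      ENNReal.ofReal (c * ((b - a) ^ 2 / 4)) := by
  have hcont : Continuous fun z => c * min (z - a) (b - z) := by fun_prop
  rw [← ofReal_integral_eq_lintegral_ofReal
      (hcont.integrableOn_Icc.mono_set Set.Ioo_subset_Icc_self)
      ((ae_restrict_iff' measurableSet_Ioo).2 (Filter.Eventually.of_forall fun z hz =>
        mul_nonneg hc (le_min (by linarith [hz.1]) (by linarith [hz.2]))))]
  congr 1
  rw [← integral_Ioc_eq_integral_Ioo, ← intervalIntegral.integral_of_le hab,
    intervalIntegral.integral_const_mul]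
  congr 1
  have hcont' : Continuous fun z => min (z - a) (b - z) := by fun_prop
  rw [← intervalIntegral.integral_add_adjacent_intervals (b := (a + b) / 2)
    (hcont'.intervalIntegrable _ _) (hcont'.intervalIntegrable _ _)]
  have e1 : ∫ z in a..(a + b) / 2, min (z - a) (b - z) = ∫ z in a..(a + b) / 2, (z - a) := by
    refine intervalIntegral.integral_congr fun z hz => ?_
    rw [Set.uIcc_of_le (by linarith)] at hz
    exact min_eq_left (by linarith [hz.2])
  have e2 : ∫ z in (a + b) / 2..b, min (z - a) (b - z) = ∫ z in (a + b) / 2..b, (b - z) := by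
    refine intervalIntegral.integral_congr fun z hz => ?_
    rw [Set.uIcc_of_le (by linarith)] at hz
    exact min_eq_right (by linarith [hz.1])
  rw [e1, e2, intervalIntegral.integral_sub intervalIntegral.intervalIntegrable_id
      intervalIntegrable_const, intervalIntegral.integral_sub
      intervalIntegrable_const intervalIntegral.intervalIntegrable_id, integral_id,
    integral_id, intervalIntegral.integral_const, intervalIntegral.integral_const]
  simp only [smul_eq_mul]
  ring

end Vale.Agent.P243.Coplanar
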