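import Vale.Agent.P243.AboveThird
import Vale.Agent.P243.Coplanar.Plank
import Vale.Agent.P243.Coplanar.Profile

/-!
# P243: cylinders with axes parallel to one plane
-/

open MeasureTheory
open scoped RealInnerProductSpace ENNReal

namespace Vale.Agent.P243.Coplanar

theorem exists_unit_orth (a b : E3) : ∃ v : E3, ‖v‖ = 1 ∧ ⟪a, v⟫ = 0 ∧ ⟪b, v⟫ = 0 := by
  obtain ⟨w, hw, hw0⟩ : ∃ w : E3, w ∈ (Submodule.span ℝ ({a, b} : Set E3))ᗮ ∧ w ≠ 0 := by
    by_contra h
    push Not at h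
    have h2 : (Submodule.span ℝ ({a, b} : Set E3))ᗮ = ⊥ := (Submodule.eq_bot_iff _).2 h
    have h3 := Submodule.finrank_add_finrank_orthogonal (Submodule.span ℝ ({a, b} : Set E3))
    rw [h2, finrank_bot, add_zero, finrank_euclideanSpace_fin] at h3
    have h4 := finrank_span_finset_le_card (R := ℝ) ({a, b} : Finset E3)
    rw [Set.finrank, Finset.coe_pair, h3] at h4
    exact absurd (h4.trans Finset.card_le_two) (by norm_num)
  refine ⟨‖w‖⁻¹ • w, norm_smul_inv_norm hw0, ?_, ?_⟩ <;>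
    rw [inner_smul_right, Submodule.inner_right_of_mem_orthogonal (Submodule.subset_span (by simp)) hw,
      mul_zero]

/-- Orthonormal coordinates on a plane. -/
theorem exists_coord {ν v u : E3} (hν : ‖ν‖ = 1) (hv : ‖v‖ = 1) (hu : ‖u‖ = 1) (hνv : ⟪ν, v⟫ = 0)
    (hνu : ⟪ν, u⟫ = 0) (hvu : ⟪v, u⟫ = 0) :
    ∃ Φ : plane u ≃ᵐ ℝ × ℝ, MeasurePreserving Φ volume volume ∧
      ∀ b : plane u, Φ b = (⟪ν, (b : E3)⟫, ⟪v, (b : E3)⟫) := by
  have hm : ∀ x : E3, ⟪x, u⟫ = 0 → x ∈ plane u := fun x hx =>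
    Submodule.mem_orthogonal_singleton_iff_inner_left.2 hx
  let e : Fin 2 → plane u := ![⟨ν, hm ν hνu⟩, ⟨v, hm v hvu⟩]
  have he : Orthonormal ℝ e := by
    rw [orthonormal_iff_ite]
    intro i j
    fin_cases i <;> fin_cases j <;>
      simp [e, Submodule.coe_inner, hν, hv, hνv, real_inner_comm ν v]
  have hspan : ⊤ ≤ Submodule.span ℝ (Set.range e) := by
    rw [he.linearIndependent.span_eq_top_of_card_eq_finrank (by rw [Fintype.card_fin, finrank_plane hu])]
  let o := OrthonormalBasis.mk he hspan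
  let Φ : plane u ≃ᵐ ℝ × ℝ :=
    (o.repr.toHomeomorph.toMeasurableEquiv.trans (MeasurableEquiv.toLp 2 (Fin 2 → ℝ)).symm).trans
      MeasurableEquiv.finTwoArrow
  refine ⟨Φ, ?_, fun b => ?_⟩
  · exact (volume_preserving_finTwoArrow ℝ).comp
      ((PiLp.volume_preserving_ofLp (Fin 2)).comp o.measurePreserving_repr)
  · refine Prod.ext ?_ ?_
    · show o.repr b 0 = _
      rw [OrthonormalBasis.repr_apply_apply]
      simp [o, e, Submodule.coe_inner]
    · show o.repr b 1 = _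
      rw [OrthonormalBasis.repr_apply_apply]
      simp [o, e, Submodule.coe_inner]

theorem coord_proj {ν v u : E3} (hνu : ⟪ν, u⟫ = 0) (hvu : ⟪v, u⟫ = 0)
    (Φ : plane u ≃ᵐ ℝ × ℝ) (hΦ : ∀ b : plane u, Φ b = (⟪ν, (b : E3)⟫, ⟪v, (b : E3)⟫)) (x : E3) :
    Φ ((plane u).orthogonalProjectionOnto x) = (⟪ν, x⟫, ⟪v, x⟫) := by
  rw [hΦ]
  have hm : ∀ y : E3, ⟪y, u⟫ = 0 → y ∈ plane u := fun y hy =>
    Submodule.mem_orthogonal_singleton_iff_inner_left.2 hy
  refine Prod.ext ?_ ?_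
  · exact Submodule.inner_orthogonalProjectionOnto_eq_of_mem_left (⟨ν, hm ν hνu⟩ : plane u) x
  · exact Submodule.inner_orthogonalProjectionOnto_eq_of_mem_left (⟨v, hm v hvu⟩ : plane u) x

/-- Coverings with axes parallel to one plane use at least half of the least shadow. -/
theorem coplanar_bound {K : Set E3} (hK : IsCompact K) (hc : Convex ℝ K)
    (hint : (interior K).Nonempty) {ι : Type} [Countable ι] (u : ι → E3) (hu : ∀ i, ‖u i‖ = 1)
    (B : ∀ i, Set (plane (u i))) (hcov : K ⊆ ⋃ i, cylinder (u i) (B i)) {ν : E3} (hν : ‖ν‖ = 1)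
    (hνu : ∀ i, ⟪ν, u i⟫ = 0) :
    ENNReal.ofReal (1 / 2) * (⨅ (w : E3) (_ : ‖w‖ = 1), shadowArea w K) ≤ ∑' i, volume (B i) := by
  classical
  set A : ℝ≥0∞ := ⨅ (w : E3) (_ : ‖w‖ = 1), shadowArea w K
  have hAle : ∀ w : E3, ‖w‖ = 1 → A ≤ shadowArea w K := fun w hw => iInf₂_le w hw
  have hAtop : A ≠ ⊤ := ne_top_of_le_ne_top
    (hK.image (plane ν).orthogonalProjectionOnto.continuous).measure_lt_top.ne (hAle ν hν)
  have hν0 : ν ≠ 0 := by intro h; rw [h, norm_zero] at hν; exact zero_ne_one hν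
  have hKne : K.Nonempty := hint.mono interior_subset
  obtain ⟨xa, hxa, hmin⟩ := hK.exists_isMinOn hKne (f := fun x => ⟪ν, x⟫) (by fun_prop)
  obtain ⟨xb, hxb, hmax⟩ := hK.exists_isMaxOn hKne (f := fun x => ⟪ν, x⟫) (by fun_prop)
  set a := ⟪ν, xa⟫
  set b := ⟪ν, xb⟫
  have hab : a < b := by
    obtain ⟨x0, hx0⟩ := hint
    obtain ⟨r, hr, hball⟩ := Metric.isOpen_iff.1 isOpen_interior x0 hx0
    have hx1 : x0 + (r / 2) • ν ∈ K := interior_subset (hball (by
      simp [Metric.mem_ball, norm_smul, hν, abs_of_pos hr]; linarith))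
    have h1 : a ≤ ⟪ν, x0⟫ := hmin (interior_subset hx0)
    have h2 : ⟪ν, x0 + (r / 2) • ν⟫ ≤ b := hmax hx1
    rw [inner_add_right, inner_smul_right, real_inner_self_eq_norm_sq, hν] at h2
    nlinarith
  choose v hv hνv huv using fun i => exists_unit_orth ν (u i)
  choose Φ hΦmp hΦ using fun i => exists_coord (v := v i) hν (hv i) (hu i) (hνv i) (hνu i)
    (by rw [real_inner_comm]; exact huv i)
  set T : ι → Set (ℝ × ℝ) := fun i => toMeasurable volume ((Φ i).symm ⁻¹' B i)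
  have hTvol : ∀ i, volume (T i) = volume (B i) := fun i => by
    rw [measure_toMeasurable]
    exact ((hΦmp i).symm (Φ i)).measure_preimage_equiv _
  have hvmem : ∀ w : E3, ⟪ν, w⟫ = 0 → w ∈ plane ν := fun w hw =>
    Submodule.mem_orthogonal_singleton_iff_inner_right.2 hw
  set c : ℝ := 2 * A.toReal / (b - a) ^ 2
  have hc0 : 0 ≤ c := div_nonneg (mul_nonneg zero_le_two ENNReal.toReal_nonneg) (sq_nonneg _)
  have hslice : ∀ z ∈ Set.Ioo a b,
      ENNReal.ofReal (c * min (z - a) (b - z)) ≤ ∑' i, volume (Prod.mk z ⁻¹' T i) := by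
    intro z hz
    set S : Set E3 := K ∩ {x | ⟪ν, x⟫ = z}
    have hS : IsCompact S := hK.inter_right (isClosed_eq (by fun_prop) continuous_const)
    have hSc : Convex ℝ S := hc.inter (by
      intro x hx y hy s t _ _ hst
      simp only [Set.mem_ofPred_eq] at hx hy ⊢
      rw [inner_add_right, inner_smul_right, inner_smul_right, hx, hy, ← add_mul, hst, one_mul])
    have hwidth : ∀ w : E3, ‖w‖ = 1 → ⟪ν, w⟫ = 0 →
        ∃ x ∈ S, ∃ y ∈ S, c * min (z - a) (b - z) ≤ ⟪w, x - y⟫ := by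
      intro w hw hνw
      obtain ⟨e, he, hνe, hwe⟩ := exists_unit_orth ν w
      obtain ⟨Ψ, hΨmp, hΨ⟩ := exists_coord hν hw he hνw hνe hwe
      set Q : Set (ℝ × ℝ) := (fun x => (⟪ν, x⟫, ⟪w, x⟫)) '' K
      have hQ : IsCompact Q := hK.image (by fun_prop)
      have hQc : Convex ℝ Q :=
        hc.linear_image ((innerₗ E3 ν).prod (innerₗ E3 w))
      have hQvol : A ≤ volume Q := by
        refine (hAle e he).trans_eq ?_
        rw [← hΨmp.measure_preimage_equiv Q, shadowArea]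
        congr 1
        have : Q = Ψ '' ((plane e).orthogonalProjectionOnto '' K) := by
          rw [Set.image_image]
          exact Set.image_congr fun x _ => (coord_proj hνe hwe Ψ hΨ x).symm
        rw [this, Ψ.injective.preimage_image]
      obtain ⟨s, t, hs, ht, hst, hle⟩ := exists_long_section hQ hQc (a := a) (b := b) (z := z)
        (by rintro _ ⟨x, hx, rfl⟩; exact ⟨hmin hx, hmax hx⟩)
        ⟨xa, hxa, rfl⟩ ⟨xb, hxb, rfl⟩ hz.1 hz.2
      obtain ⟨x, hx, hx'⟩ := hs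
      obtain ⟨y, hy, hy'⟩ := ht
      simp only [Prod.mk.injEq] at hx' hy'
      refine ⟨x, ⟨hx, hx'.1⟩, y, ⟨hy, hy'.1⟩, ?_⟩
      rw [inner_sub_right, hx'.2, hy'.2]
      have hm : 0 < min (z - a) (b - z) := lt_min (by linarith [hz.1]) (by linarith [hz.2])
      have hA : A.toReal ≤ (b - a) ^ 2 * (s - t) / (2 * min (z - a) (b - z)) := by
        refine ENNReal.toReal_le_of_le_ofReal ?_ (hQvol.trans hle)
        exact div_nonneg (mul_nonneg (sq_nonneg _) hst) (by linarith)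
      rw [le_div_iff₀ (by linarith)] at hA
      have hd : 0 < (b - a) ^ 2 := pow_pos (sub_pos.2 hab) 2
      simp only [c]
      rw [div_mul_eq_mul_div, div_le_iff₀ hd]
      linarith
    set S' : Set (plane ν) := (plane ν).orthogonalProjectionOnto '' S
    have hinner : ∀ (w : plane ν) (x : E3),
        ⟪w, (plane ν).orthogonalProjectionOnto x⟫ = ⟪(w : E3), x⟫ := fun w x =>
      Submodule.inner_orthogonalProjectionOnto_eq_of_mem_left w x
    refine width_le_tsum (fun i => (⟨v i, hvmem _ (hνv i)⟩ : plane ν)) (fun i => hv i)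
      (fun i => Prod.mk z ⁻¹' T i) (K := S')
      (hS.image (plane ν).orthogonalProjectionOnto.continuous)
      (hSc.linear_image (plane ν).orthogonalProjectionOnto.toLinearMap) ?_ ?_ ?_
    · obtain ⟨x, hx, -⟩ := hwidth _ (exists_unit_orth ν ν).choose_spec.1
        (exists_unit_orth ν ν).choose_spec.2.1
      exact ⟨_, x, hx, rfl⟩
    · intro w hw
      have hνw : ⟪ν, (w : E3)⟫ = 0 := Submodule.mem_orthogonal_singleton_iff_inner_right.1 w.2
      obtain ⟨x, hx, y, hy, hxy⟩ := hwidth (w : E3) hw hνw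
      refine ⟨_, ⟨x, hx, rfl⟩, _, ⟨y, hy, rfl⟩, ?_⟩
      rw [inner_sub_right, hinner, hinner, ← inner_sub_right]
      exact hxy
    · rintro _ ⟨x, hx, rfl⟩
      obtain ⟨i, hi⟩ := Set.mem_iUnion.1 (hcov hx.1)
      rw [cylinder_eq_preimage (hu i)] at hi
      refine ⟨i, ?_⟩
      rw [hinner]
      show (z, ⟪v i, x⟫) ∈ T i
      refine subset_toMeasurable _ _ ?_
      show (Φ i).symm (z, ⟪v i, x⟫) ∈ B i
      have hp := coord_proj (hνu i) (by rw [real_inner_comm]; exact huv i) (Φ i) (hΦ i) x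
      rw [← hx.2, ← hp, MeasurableEquiv.symm_apply_apply]
      exact hi
  have hTm : ∀ i, MeasurableSet (T i) := fun i => measurableSet_toMeasurable _ _
  calc ENNReal.ofReal (1 / 2) * A = ENNReal.ofReal (c * ((b - a) ^ 2 / 4)) := by
        conv_lhs => rw [← ENNReal.ofReal_toReal hAtop, ← ENNReal.ofReal_mul (by norm_num)]
        congr 1
        have hd : (b - a) ^ 2 ≠ 0 := pow_ne_zero 2 (sub_pos.2 hab).ne'
        simp only [c]
        rw [div_mul_div_comm, mul_comm (2 * A.toReal), mul_div_mul_left _ _ hd]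
        ring
    _ = ∫⁻ z in Set.Ioo a b, ENNReal.ofReal (c * min (z - a) (b - z)) :=
        (lintegral_tent hab.le hc0).symm
    _ ≤ ∫⁻ z in Set.Ioo a b, ∑' i, volume (Prod.mk z ⁻¹' T i) :=
        setLIntegral_mono' measurableSet_Ioo hslice
    _ ≤ ∫⁻ z, ∑' i, volume (Prod.mk z ⁻¹' T i) := setLIntegral_le_lintegral _ _
    _ = ∑' i, ∫⁻ z, volume (Prod.mk z ⁻¹' T i) :=
        lintegral_tsum fun i => (measurable_measure_prodMk_left (hTm i)).aemeasurable
    _ = ∑' i, volume (B i) := by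
        refine tsum_congr fun i => ?_
        rw [← hTvol i, Measure.volume_eq_prod, Measure.prod_apply (hTm i)]

/-- Half the least shadow, for coverings with axes parallel to one plane, and so for coverings
that use at most two directions. -/
theorem coplanar_half :
    (∀ (K : Set E3) (ι : Type) [Countable ι] (u : ι → E3) (B : ∀ i, BaseSet (u i)),
      IsBody K → IsCylinderCovering K u B → (∃ ν : E3, ‖ν‖ = 1 ∧ ∀ i, ⟪ν, u i⟫ = 0) →
        ENNReal.ofReal (1 / 2) * leastShadow3 K ≤ totalArea3 u B) ∧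
    ∀ (K : Set E3) (ι : Type) [Countable ι] (u : ι → E3) (B : ∀ i, BaseSet (u i)) (p q : E3),
      IsBody K → IsCylinderCovering K u B → (∀ i, u i = p ∨ u i = q) →
        ENNReal.ofReal (1 / 2) * leastShadow3 K ≤ totalArea3 u B := by
  have h : ∀ (K : Set E3) (ι : Type) [Countable ι] (u : ι → E3) (B : ∀ i, BaseSet (u i)),
      IsBody K → IsCylinderCovering K u B → (∃ ν : E3, ‖ν‖ = 1 ∧ ∀ i, ⟪ν, u i⟫ = 0) →
        ENNReal.ofReal (1 / 2) * leastShadow3 K ≤ totalArea3 u B := by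
    intro K ι _ u B hK hcov ⟨ν, hν, hνu⟩
    exact coplanar_bound hK.1 hK.2.1 hK.2.2 u hcov.1 B hcov.2 hν hνu
  refine ⟨h, fun K ι _ u B p q hK hcov hpq => h K ι u B hK hcov ?_⟩
  obtain ⟨ν, hν, hp, hq⟩ := exists_unit_orth p q
  refine ⟨ν, hν, fun i => ?_⟩
  rw [real_inner_comm]
  rcases hpq i with e | e <;> rw [e]
  · exact hp
  · exact hq

end Vale.Agent.P243.Coplanar
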